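import Vale.Agent.P280.H706.V3Fin
import Vale.Agent.P280.H641.Src
import Vale.Agent.P280.H60.Fin

/-! P280, T7, helper706: `VecP`. -/

open DirectSum Vale.Agent.P280.T Vale.Agent.P280.H127

namespace Vale.Agent.P280.H706

open Vale.Agent.P280.N Vale.Agent.P280.N.H989 Vale.Agent.P280.H143 Vale.Agent.P280.H60
  Vale.Agent.P280.H690 Vale.Agent.P280.H749

variable {r : ℕ} {R : Type} [CommRing R] [IsDomain R] [Algebra ℂ R]
  {𝒜 : ℕ × (Fin r → ℤ) → Submodule ℂ R} [GradedAlgebra 𝒜]
variable {N N' : ℤ} {b : (Fin r → ℤ) → ((Fin r → ℤ) →+ ℤ)} {al : (Fin r → ℤ) → ℂ}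
  {E F : (Fin r → ℤ) → Derivation ℂ R R} {a : (Fin r → ℤ) → FP 𝒜 → ℤ} {f : Fin 4 → Fin r → ℤ}
  {β : Fin 4 → Fin 4 → ((Fin r → ℤ) →+ ℤ)} {E' F' : Fin 4 → Fin 4 → VF R}

omit [IsDomain R] [GradedAlgebra 𝒜] in
theorem ne_of_val {g : (Fin r → ℤ) →+ ℤ} {x y : Fin r → ℤ} (h : g x ≠ g y) : x ≠ y := by
  rintro rfl
  exact h rfl

/-- The component for other root data. -/
theorem V3.of_AC' (H : H63X.Hyp 𝒜) (h : RD 𝒜 N b al E F a) (hA : AC 𝒜 N' 3 f β E' F')
    (hv : ∃ i j, i ≠ j ∧ Wt 𝒜 (f i + f j)) : V3 𝒜 N b f := by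
  have hN := h.N0
  have hN' := hA.N0
  have hst : ∀ i j k, i ≠ j → k ≠ i → k ≠ j → Wt 𝒜 (f i + f j) → Wt 𝒜 (f i + f k) := by
    intro i j k hij hki hkj hw
    have h1 := H641.reflect_wt H hN' (hA.vx k j hkj) (hA.root k j hkj) hw (by
      rw [map_add, hA.be k j i hkj, hA.be k j j hkj, if_neg (Ne.symm hki), if_neg hij,
        if_neg (Ne.symm hkj), if_pos rfl]
      ring)
    have e1 : f i + f j + (f k - f j) = f i + f k := by abel
    rwa [e1] at h1
  have hall : ∀ i j k l, i ≠ j → k ≠ l → Wt 𝒜 (f i + f j) → Wt 𝒜 (f k + f l) := by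
    intro i j k l hij hkl hw
    by_cases h1 : k = i
    · subst h1
      by_cases h2 : l = j
      · rw [h2]; exact hw
      · exact hst k j l hij (Ne.symm hkl) h2 hw
    by_cases h2 : k = j
    · subst h2
      rw [add_comm] at hw
      by_cases h3 : l = i
      · rw [h3]; exact hw
      · exact hst k i l (Ne.symm hij) (Ne.symm hkl) h3 hw
    have h3 := hst i j k hij h1 h2 hw
    rw [add_comm] at h3
    by_cases h4 : l = i
    · rw [h4]; exact h3
    · exact hst k i l h1 (Ne.symm hkl) h4 h3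
  obtain ⟨i0, j0, hij0, hw0⟩ := hv
  -- the coroots
  have two' : ∀ i j, i ≠ j → β i j (f i - f j) = 2 * N' := fun i j hij => (hA.root i j hij).two
  have two : ∀ i j, i ≠ j → b (f i - f j) (f i - f j) = 2 * N := fun i j hij =>
    (h.root _ (hA.vx i j hij)).two
  have hbd : ∀ i j, i ≠ j → ∀ μ, Wt 𝒜 μ → β i j μ ≠ 2 * N' → β i j μ ≠ -(2 * N') →
      |b (f i - f j) μ| ≤ N := by
    intro i j hij μ hμ h1 h2
    refine (h.root _ (hA.vx i j hij)).bd μ hμ (fun e => h1 ?_) (fun e => h2 ?_)
    · rw [e, two' i j hij]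
    · rw [e, map_neg, two' i j hij]
  have bi : ∀ i j, i ≠ j → b (f i - f j) (f i) = N ∧ b (f i - f j) (f j) = -N := by
    intro i j hij
    have v1 : β i j (f i) = N' := by
      rw [hA.be i j i hij, if_pos rfl, if_neg hij, sub_zero]
    have v2 : β i j (f j) = -N' := by
      rw [hA.be i j j hij, if_neg (Ne.symm hij), if_pos rfl, zero_sub]
    have b1 := abs_le.1 (hbd i j hij (f i) (hA.wt i) (by omega) (by omega))
    have b2 := abs_le.1 (hbd i j hij (f j) (hA.wt j) (by omega) (by omega))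
    have b3 := two i j hij
    rw [map_sub] at b3
    omega
  have be : ∀ i j k, i ≠ j →
      b (f i - f j) (f k) = (if k = i then N else 0) - (if k = j then N else 0) := by
    intro i j k hij
    obtain ⟨b1, b2⟩ := bi i j hij
    by_cases hki : k = i
    · rw [if_pos hki, if_neg (by rw [hki]; exact hij), hki, b1, sub_zero]
    by_cases hkj : k = j
    · rw [if_neg hki, if_pos hkj, hkj, b2, zero_sub]
    rw [if_neg hki, if_neg hkj, sub_zero]
    have v1 : β i j (f i) = N' := by
      rw [hA.be i j i hij, if_pos rfl, if_neg hij, sub_zero]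
    have v2 : β i j (f j) = -N' := by
      rw [hA.be i j j hij, if_neg (Ne.symm hij), if_pos rfl, zero_sub]
    have v3 : β i j (f k) = 0 := by
      rw [hA.be i j k hij, if_neg hki, if_neg hkj, sub_zero]
    have c1 := (abs_le.1 (hbd i j hij (f k - f j) (hA.vx k j hkj).1 (by
      rw [map_sub, v3, v2]; omega) (by rw [map_sub, v3, v2]; omega))).2
    have c2 := (abs_le.1 (hbd i j hij (f i - f k) (hA.vx i k (Ne.symm hki)).1 (by
      rw [map_sub, v3, v1]; omega) (by rw [map_sub, v3, v1]; omega))).2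
    rw [map_sub, b2] at c1
    rw [map_sub, b1] at c2
    omega
  -- the orthogonal weights
  have ho : ∀ i j, i ≠ j → ∀ μ, Wt 𝒜 μ → β i j μ = 0 → b (f i - f j) μ = -N → False := by
    intro i j hij μ hμ h1 h2
    have hvx := hA.vx i j hij
    have h3 := H641.reflect_wt H hN hvx (h.root _ hvx) hμ h2
    have h4 : β i j (μ + (f i - f j)) = 2 * N' := by rw [map_add, h1, two' i j hij, zero_add]
    have h5 : μ + (f i - f j) = f i - f j := by
      by_contra hne
      have h6 := (hA.root i j hij).bd _ h3 hne (fun e => by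
        rw [e, map_neg, two' i j hij] at h4
        omega)
      rw [h4, abs_of_pos (by omega)] at h6
      omega
    rw [add_eq_right.1 h5, map_zero] at h2
    omega
  have orth : ∀ i j, i ≠ j → ∀ μ, Wt 𝒜 μ → β i j μ = 0 → b (f i - f j) μ = 0 := by
    intro i j hij μ hμ h1
    have h2 := abs_le.1 (hbd i j hij μ hμ (by omega) (by omega))
    obtain ⟨k, hk⟩ := (h.root _ (hA.vx i j hij)).int μ hμ
    by_contra hne
    have hk0 : k ≠ 0 := by
      rintro rfl
      exact hne (by rw [hk, mul_zero])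
    have hk1 : k ≤ 1 := by
      by_contra hc
      push Not at hc
      nlinarith [h2.2]
    have hk2 : -1 ≤ k := by
      by_contra hc
      push Not at hc
      nlinarith [h2.1]
    have hk3 : k = 1 ∨ k = -1 := by omega
    rcases hk3 with rfl | rfl
    · refine ho i j hij (-μ) (H641.wt_neg H hμ) (by rw [map_neg, h1, neg_zero]) ?_
      rw [map_neg, hk, mul_one]
    · exact ho i j hij μ hμ h1 (by rw [hk]; ring)
  exact
    { sum := hA.sum
      wt := hA.wt
      wtn := hA.wtn
      vx := hA.vx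
      vc := fun i j hij => hall i0 j0 i j hij0 hij hw0
      be := be
      S := fun μ hμ => by
        rcases hA.S μ hμ with h1 | h1 | h1 | ⟨-, h1⟩
        · exact Or.inl fun i j hij => orth i j hij μ hμ (h1 i j hij)
        · exact Or.inr (Or.inl h1)
        · exact Or.inr (Or.inr (Or.inl h1))
        · exact Or.inr (Or.inr (Or.inr h1)) }

/-- **The interior weights of a component of type `A_3` with vector weights lift at all
sources.** -/
theorem vecP (H : H63X.Hyp 𝒜) (hdat : CritData 𝒜) : H641.VecP 𝒜 := by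
  intro c hc p hp N' f β E' F' hA hv
  obtain ⟨N, b, al, E, F, a, h⟩ := exists_RD H
  exact ((V3.of_AC' H h hA hv).lf_source H (H60.bd_of_data H hdat) hdat h hc hp (Fin.last 3)).2

end Vale.Agent.P280.H706
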