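import Vale.Agent.P280.H226.AC
import Vale.Agent.P280.H309.Mid
import Vale.Agent.P280.H60.Crit

/-! P280, T7, helper706: the component of type `A_3` with vector weights. The weights are the roots
`f i - f j`, the vectors `f i + f j` and the spins `f i`, `-f i`. -/

open DirectSum Vale.Agent.P280.T Vale.Agent.P280.H127

namespace Vale.Agent.P280.H706

open Vale.Agent.P280.N Vale.Agent.P280.N.H989 Vale.Agent.P280.H143 Vale.Agent.P280.H60
  Vale.Agent.P280.H690

variable {r : ℕ} {R : Type} [CommRing R] [IsDomain R] [Algebra ℂ R]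
  {𝒜 : ℕ × (Fin r → ℤ) → Submodule ℂ R}

/-- The weights of a component of type `A_3` with vector weights. -/
structure V3 (𝒜 : ℕ × (Fin r → ℤ) → Submodule ℂ R) (N : ℤ)
    (b : (Fin r → ℤ) → ((Fin r → ℤ) →+ ℤ)) (f : Fin 4 → Fin r → ℤ) : Prop where
  sum : ∑ i, f i = 0
  wt : ∀ i, Wt 𝒜 (f i)
  wtn : ∀ i, Wt 𝒜 (-f i)
  vx : ∀ i j, i ≠ j → Vx 𝒜 (f i - f j)
  vc : ∀ i j, i ≠ j → Wt 𝒜 (f i + f j)
  be : ∀ i j k, i ≠ j →
    b (f i - f j) (f k) = (if k = i then N else 0) - (if k = j then N else 0)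
  S : ∀ μ, Wt 𝒜 μ → (∀ i j, i ≠ j → b (f i - f j) μ = 0) ∨ (∃ i j, i ≠ j ∧ μ = f i - f j) ∨
    (∃ i, μ = f i ∨ μ = -f i) ∨ (∃ i j, i ≠ j ∧ μ = f i + f j)

section
variable {N : ℤ} {b : (Fin r → ℤ) → ((Fin r → ℤ) →+ ℤ)} {f : Fin 4 → Fin r → ℤ}

omit [IsDomain R] in
theorem V3.perm (h : V3 𝒜 N b f) (σ : Equiv.Perm (Fin 4)) : V3 𝒜 N b (fun i => f (σ i)) where
  sum := by rw [Equiv.sum_comp σ f]; exact h.sum
  wt i := h.wt _
  wtn i := h.wtn _
  vx i j hij := h.vx _ _ (σ.injective.ne hij)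
  vc i j hij := h.vc _ _ (σ.injective.ne hij)
  be i j k hij := by
    rw [h.be _ _ _ (σ.injective.ne hij)]
    simp only [σ.injective.eq_iff]
  S μ hμ := by
    rcases h.S μ hμ with h1 | ⟨i, j, hij, h1⟩ | ⟨i, h1⟩ | ⟨i, j, hij, h1⟩
    · exact Or.inl fun i j hij => h1 _ _ (σ.injective.ne hij)
    · refine Or.inr (Or.inl ⟨σ.symm i, σ.symm j, σ.symm.injective.ne hij, ?_⟩)
      simpa using h1
    · refine Or.inr (Or.inr (Or.inl ⟨σ.symm i, ?_⟩))
      simpa using h1
    · refine Or.inr (Or.inr (Or.inr ⟨σ.symm i, σ.symm j, σ.symm.injective.ne hij, ?_⟩))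
      simpa using h1

/-- Two indices and the two others. -/
theorem four {f : Fin 4 → Fin r → ℤ} (hs : ∑ i, f i = 0) (i j : Fin 4) (hij : i ≠ j) :
    ∃ k l : Fin 4, k ≠ i ∧ k ≠ j ∧ l ≠ i ∧ l ≠ j ∧ k ≠ l ∧ f i + f j + (f k + f l) = 0 := by
  rw [Fin.sum_univ_four] at hs
  fin_cases i <;> fin_cases j
  · exact absurd rfl hij
  · exact ⟨2, 3, by decide, by decide, by decide, by decide, by decide, by
      rw [← hs]; change f 0 + f 1 + (f 2 + f 3) = _; abel⟩
  · exact ⟨1, 3, by decide, by decide, by decide, by decide, by decide, by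
      rw [← hs]; change f 0 + f 2 + (f 1 + f 3) = _; abel⟩
  · exact ⟨1, 2, by decide, by decide, by decide, by decide, by decide, by
      rw [← hs]; change f 0 + f 3 + (f 1 + f 2) = _; abel⟩
  · exact ⟨2, 3, by decide, by decide, by decide, by decide, by decide, by
      rw [← hs]; change f 1 + f 0 + (f 2 + f 3) = _; abel⟩
  · exact absurd rfl hij
  · exact ⟨0, 3, by decide, by decide, by decide, by decide, by decide, by
      rw [← hs]; change f 1 + f 2 + (f 0 + f 3) = _; abel⟩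
  · exact ⟨0, 2, by decide, by decide, by decide, by decide, by decide, by
      rw [← hs]; change f 1 + f 3 + (f 0 + f 2) = _; abel⟩
  · exact ⟨1, 3, by decide, by decide, by decide, by decide, by decide, by
      rw [← hs]; change f 2 + f 0 + (f 1 + f 3) = _; abel⟩
  · exact ⟨0, 3, by decide, by decide, by decide, by decide, by decide, by
      rw [← hs]; change f 2 + f 1 + (f 0 + f 3) = _; abel⟩
  · exact absurd rfl hij
  · exact ⟨0, 1, by decide, by decide, by decide, by decide, by decide, by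
      rw [← hs]; change f 2 + f 3 + (f 0 + f 1) = _; abel⟩
  · exact ⟨1, 2, by decide, by decide, by decide, by decide, by decide, by
      rw [← hs]; change f 3 + f 0 + (f 1 + f 2) = _; abel⟩
  · exact ⟨0, 2, by decide, by decide, by decide, by decide, by decide, by
      rw [← hs]; change f 3 + f 1 + (f 0 + f 2) = _; abel⟩
  · exact ⟨0, 1, by decide, by decide, by decide, by decide, by decide, by
      rw [← hs]; change f 3 + f 2 + (f 0 + f 1) = _; abel⟩
  · exact absurd rfl hij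

omit [IsDomain R] in
theorem V3.neg (h : V3 𝒜 N b f) : V3 𝒜 N b (fun i => -f i) where
  sum := by rw [Finset.sum_neg_distrib, h.sum, neg_zero]
  wt i := h.wtn i
  wtn i := by rw [neg_neg]; exact h.wt i
  vx i j hij := by
    rw [neg_sub_neg]
    exact h.vx j i hij.symm
  vc i j hij := by
    obtain ⟨k, l, -, -, -, -, hkl, h0⟩ := four h.sum i j hij
    rw [← neg_add, neg_eq_of_add_eq_zero_right h0]
    exact h.vc k l hkl
  be i j k hij := by
    rw [neg_sub_neg, map_neg, h.be j i k hij.symm]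
    ring
  S μ hμ := by
    rcases h.S μ hμ with h1 | ⟨i, j, hij, h1⟩ | ⟨i, h1⟩ | ⟨i, j, hij, h1⟩
    · refine Or.inl fun i j hij => ?_
      rw [neg_sub_neg]
      exact h1 _ _ hij.symm
    · refine Or.inr (Or.inl ⟨j, i, hij.symm, ?_⟩)
      rw [h1]; abel
    · refine Or.inr (Or.inr (Or.inl ⟨i, ?_⟩))
      rw [neg_neg]
      exact h1.symm
    · obtain ⟨k, l, -, -, -, -, hkl, h2⟩ := four h.sum i j hij
      refine Or.inr (Or.inr (Or.inr ⟨k, l, hkl, ?_⟩))
      rw [h1, ← neg_add, ← neg_eq_of_add_eq_zero_right h2, neg_neg]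

end

variable [GradedAlgebra 𝒜]

/-- The component of an interior weight of type `A_3` when one vector weight is present. -/
theorem V3.of_AC (H : H63X.Hyp 𝒜) {N : ℤ} {b : (Fin r → ℤ) → ((Fin r → ℤ) →+ ℤ)}
    {f : Fin 4 → Fin r → ℤ} {E F : Fin 4 → Fin 4 → VF R}
    (hA : AC 𝒜 N 3 f (fun i j => b (f i - f j)) E F) (hv : ∃ i j, i ≠ j ∧ Wt 𝒜 (f i + f j)) :
    V3 𝒜 N b f := by
  have hN := hA.N0
  have hst : ∀ i j k, i ≠ j → k ≠ i → k ≠ j → Wt 𝒜 (f i + f j) → Wt 𝒜 (f i + f k) := by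
    intro i j k hij hki hkj hw
    have h1 := H641.reflect_wt H hN (hA.vx k j hkj) (hA.root k j hkj) hw (by
      rw [map_add, hA.be k j i hkj, hA.be k j j hkj, if_neg (Ne.symm hki), if_neg hij,
        if_neg (Ne.symm hkj), if_pos rfl]
      ring)
    have e1 : f i + f j + (f k - f j) = f i + f k := by abel
    rwa [e1] at h1
  have hall : ∀ i j k l, i ≠ j → k ≠ l → Wt 𝒜 (f i + f j) → Wt 𝒜 (f k + f l) := by
    intro i j k l hij hkl hw
    by_cases h1 : k = i
    · subst h1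
      by_cases h2 : l = j
      · rw [h2]; exact hw
      · exact hst k j l hij (Ne.symm hkl) h2 hw
    by_cases h2 : k = j
    · subst h2
      rw [add_comm] at hw
      by_cases h3 : l = i
      · rw [h3]; exact hw
      · exact hst k i l (Ne.symm hij) (Ne.symm hkl) h3 hw
    have h3 := hst i j k hij h1 h2 hw
    rw [add_comm] at h3
    by_cases h4 : l = i
    · rw [h4]; exact h3
    · exact hst k i l h1 (Ne.symm hkl) h4 h3
  obtain ⟨i0, j0, hij0, hw0⟩ := hv
  exact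
    { sum := hA.sum
      wt := hA.wt
      wtn := hA.wtn
      vx := hA.vx
      vc := fun i j hij => hall i0 j0 i j hij0 hij hw0
      be := hA.be
      S := fun μ hμ => by
        rcases hA.S μ hμ with h1 | h1 | h1 | ⟨-, h1⟩
        · exact Or.inl h1
        · exact Or.inr (Or.inl h1)
        · exact Or.inr (Or.inr (Or.inl h1))
        · exact Or.inr (Or.inr (Or.inr h1)) }

omit [IsDomain R] in
/-- A root field does not vanish where its weight is a tangent weight. -/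
theorem rt_at (H : H63X.Hyp 𝒜) {N : ℤ} (hN : 0 < N) {w : Fin r → ℤ} {β : (Fin r → ℤ) →+ ℤ} {α : ℂ}
    {E F : Derivation ℂ R R} (hR : Rt 𝒜 N w β α E F) {y : FP 𝒜} (hy : y.Pi w) :
    ∃ h, y.q (E h) ≠ 0 := by
  by_contra hcon
  push Not at hcon
  have hR' := hR.neg
  obtain ⟨bb, c, hbb, hb2, hF', hEF⟩ := hR'.norm hN
  have hNC : (N : ℂ) ≠ 0 := by exact_mod_cast hN.ne'
  have hbw : bb w = ((-2 : ℤ) : ℂ) := by
    have h1 := hbb w
    rw [AddMonoidHom.neg_apply, hR.two] at h1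
    push_cast at h1 ⊢
    apply mul_left_cancel₀ hNC
    rw [h1]
    ring
  obtain ⟨t, ht, htw, hne⟩ := hy
  obtain ⟨u, hu, huw, hut⟩ := H224.exch_vec H.hX H.hN y.nv y.fix hR'.hE hF' (c := c) hb2
    (fun d m h hh => by
      rw [Derivation.commutator_apply, ← neg_sub (F _), hEF d m h hh, neg_neg]
      congr 1
      ring) (fun h => by rw [Derivation.smul_apply, map_smul, hcon, smul_zero]) hbw
    (by norm_num) ht htw
  rw [add_neg_cancel] at huw
  have h1 : ∃ c : ℂ, ∀ d m, ∀ x ∈ 𝒜 (d, m), u x = c * d * y.q x := by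
    by_contra hcon2
    push Not at hcon2
    exact H.iso y.q y.ν y.nv y.fix ⟨u, hu, huw, hcon2⟩
  obtain ⟨c1, hc1⟩ := h1
  obtain ⟨d, m, x, hx, hxne⟩ := hne 0
  apply hxne
  rw [hut, zero_mul, zero_mul]
  change u (((N : ℂ)⁻¹ • E) x) = 0
  rw [Derivation.smul_apply, map_smul, hc1 d _ _ (hR.hE d m x hx), hcon, mul_zero, smul_zero]

section
variable {N : ℤ} {b : (Fin r → ℤ) → ((Fin r → ℤ) →+ ℤ)} {al : (Fin r → ℤ) → ℂ}
  {E F : (Fin r → ℤ) → Derivation ℂ R R} {a : (Fin r → ℤ) → FP 𝒜 → ℤ} {f : Fin 4 → Fin r → ℤ}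

/-- The root of a vector weight. -/
theorem V3.vec (H : H63X.Hyp 𝒜) (hBd : Bd 𝒜) (h : RD 𝒜 N b al E F a) (hf : V3 𝒜 N b f)
    {i j : Fin 4} (hij : i ≠ j) :
    ∃ (β : (Fin r → ℤ) →+ ℤ) (α : ℂ) (E' F' : Derivation ℂ R R),
      Rt 𝒜 N (f i + f j) β α E' F' ∧ β (f i) = N ∧ β (f j) = N ∧ (∀ ω, Wt 𝒜 ω → N ∣ β ω) ∧
        Bdy 𝒜 (f i + f j) := by
  obtain ⟨k, l, hki, hkj, hli, hlj, hkl, h0⟩ := four hf.sum i j hij
  have e1 : (f i + f j) + (f i + f j) = (f i - f k) + (f j - f l) := by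
    have e2 : (f i - f k) + (f j - f l) = (f i + f j) + (f i + f j) - (f i + f j + (f k + f l)) := by
      abel
    rw [e2, h0, sub_zero]
  have v1 := hf.vx i k (Ne.symm hki)
  have v2 := hf.vx j l (Ne.symm hlj)
  have p1 : b (f i - f k) (f i) = N := by
    rw [hf.be i k i (Ne.symm hki), if_pos rfl, if_neg (Ne.symm hki), sub_zero]
  have p2 : b (f i - f k) (f j) = 0 := by
    rw [hf.be i k j (Ne.symm hki), if_neg (Ne.symm hij), if_neg (Ne.symm hkj), sub_zero]
  have p3 : b (f i - f k) (f l) = 0 := by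
    rw [hf.be i k l (Ne.symm hki), if_neg hli, if_neg (Ne.symm hkl), sub_zero]
  have p4 : b (f j - f l) (f j) = N := by
    rw [hf.be j l j (Ne.symm hlj), if_pos rfl, if_neg (Ne.symm hlj), sub_zero]
  have p5 : b (f j - f l) (f i) = 0 := by
    rw [hf.be j l i (Ne.symm hlj), if_neg hij, if_neg (Ne.symm hli), sub_zero]
  have p6 : b (f j - f l) (f k) = 0 := by
    rw [hf.be j l k (Ne.symm hlj), if_neg hkj, if_neg hkl, sub_zero]
  have o1 : b (f i - f k) (f j - f l) = 0 := by rw [map_sub, p2, p3, sub_zero]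
  have o2 : b (f j - f l) (f i - f k) = 0 := by rw [map_sub, p5, p6, sub_zero]
  obtain ⟨E', F', hR, -⟩ := H309.mid H hBd h v1 v2 o1 o2 e1 (hf.vc i j hij)
  refine ⟨_, _, E', F', hR, ?_, ?_, ?_, ?_⟩
  · rw [AddMonoidHom.add_apply, p1, p5, add_zero]
  · rw [AddMonoidHom.add_apply, p2, p4, zero_add]
  · intro ω hω
    rw [AddMonoidHom.add_apply]
    exact dvd_add ((h.root _ v1).int ω hω) ((h.root _ v2).int ω hω)
  · refine ⟨b (f i - f k) + b (f j - f l), ?_, fun ω hω => ?_⟩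
    · rw [hR.two]
      have := h.N0
      omega
    · rw [hR.two, AddMonoidHom.add_apply]
      exact (abs_le.1 (H309.orth_le H h v1 v2 o1 o2 hω)).2

/-- The string of a spin up to `f i`. -/
theorem V3.up (H : H63X.Hyp 𝒜) (hBd : Bd 𝒜) (h : RD 𝒜 N b al E F a) (hf : V3 𝒜 N b f)
    {i k : Fin 4} (hik : i ≠ k) {t : Fin r → ℤ} (ht : t = f k ∨ t = -f k) {z : FP 𝒜}
    (hz : z.Pi t) (hn : ¬ z.Pi (-(f i - t))) : z.Pi (f i) := by
  have hN := h.N0
  rcases ht with rfl | rfl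
  · have h1 := H63X.nef_string0 H hN (H155.toRoot0 (h.root _ (hf.vx i k hik)))
      (h.root _ (hf.vx i k hik)).int z hn hz (by
        rw [hf.be i k k hik, if_neg (Ne.symm hik), if_pos rfl]
        omega)
    rwa [add_sub_cancel] at h1
  · obtain ⟨β, α, E', F', hR, h1, h2, h3, -⟩ := hf.vec H hBd h hik
    rw [sub_neg_eq_add] at hn
    have h4 := H63X.nef_string0 H hN (root0 hR) h3 z hn hz (by rw [map_neg, h2]; omega)
    rwa [neg_add_eq_sub, add_sub_cancel_right] at h4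

/-- The string of `f i` down. -/
theorem V3.down (H : H63X.Hyp 𝒜) (hBd : Bd 𝒜) (h : RD 𝒜 N b al E F a) (hf : V3 𝒜 N b f)
    {i k : Fin 4} (hik : i ≠ k) {w : Fin r → ℤ} (hw : w = f i - f k ∨ w = f i + f k) {z : FP 𝒜}
    (hz : z.Pi (f i)) (hn : ¬ z.Pi w) : z.Pi (f i - w) := by
  have hN := h.N0
  rcases hw with rfl | rfl
  · have hv := hf.vx i k hik
    have h1 := H63X.nef_string0 H hN (root0 (h.rt _ hv).neg)
      (fun ω hω => by rw [AddMonoidHom.neg_apply]; exact ((h.root _ hv).int ω hω).neg_right) z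
      (by rwa [neg_neg]) hz (by
        rw [AddMonoidHom.neg_apply, hf.be i k i hik, if_pos rfl, if_neg hik]
        omega)
    rwa [← sub_eq_add_neg] at h1
  · obtain ⟨β, α, E', F', hR, h1, h2, h3, -⟩ := hf.vec H hBd h hik
    have h4 := H63X.nef_string0 H hN (root0 hR.neg)
      (fun ω hω => by rw [AddMonoidHom.neg_apply]; exact (h3 ω hω).neg_right) z
      (by rwa [neg_neg]) hz (by rw [AddMonoidHom.neg_apply, h1]; omega)
    rwa [← sub_eq_add_neg] at h4

end

end Vale.Agent.P280.H706
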