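import Vale.Agent.P280.H706.V3

/-! P280, T7, helper706: lifting of the spins of a component of type `A_3` with vector weights at
all sources. -/

open DirectSum Vale.Agent.P280.T Vale.Agent.P280.H127

namespace Vale.Agent.P280.H706

open Vale.Agent.P280.N Vale.Agent.P280.N.H989 Vale.Agent.P280.H143 Vale.Agent.P280.H60
  Vale.Agent.P280.H690 Vale.Agent.P280.H749

variable {r : ℕ} {R : Type} [CommRing R] [IsDomain R] [Algebra ℂ R]
  {𝒜 : ℕ × (Fin r → ℤ) → Submodule ℂ R} [GradedAlgebra 𝒜]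
variable {N : ℤ} {b : (Fin r → ℤ) → ((Fin r → ℤ) →+ ℤ)} {al : (Fin r → ℤ) → ℂ}
  {E F : (Fin r → ℤ) → Derivation ℂ R R} {a : (Fin r → ℤ) → FP 𝒜 → ℤ} {f : Fin 4 → Fin r → ℤ}

/-- The sum of positive values is not negative. -/
theorem sum_nonneg {c : (Fin r → ℤ) →+ ℤ} {M : List (Fin r → ℤ)} (hM : ∀ μ ∈ M, 0 ≤ c μ) :
    0 ≤ c M.sum := by
  induction M with
  | nil => simp
  | cons x M ih =>
    rw [List.sum_cons, map_add]
    have h1 := hM x List.mem_cons_self
    have h2 := ih fun μ hμ => hM μ (List.mem_cons_of_mem _ hμ)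
    omega

theorem le_sum {c : (Fin r → ℤ) →+ ℤ} {M : List (Fin r → ℤ)} (hM : ∀ μ ∈ M, 0 ≤ c μ)
    {u : Fin r → ℤ} (hu : u ∈ M) : c u ≤ c M.sum := by
  induction M with
  | nil => exact absurd hu List.not_mem_nil
  | cons x M ih =>
    rw [List.sum_cons, map_add]
    have h1 := hM x List.mem_cons_self
    have h2 := sum_nonneg (c := c) (M := M) fun μ hμ => hM μ (List.mem_cons_of_mem _ hμ)
    rcases List.mem_cons.1 hu with rfl | h3
    · omega
    · have := ih (fun μ hμ => hM μ (List.mem_cons_of_mem _ hμ)) h3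
      omega

omit [IsDomain R] [GradedAlgebra 𝒜] in
/-- The parity functional. -/
theorem V3.par (hf : V3 𝒜 N b f) {μ : Fin r → ℤ} (hμ : Wt 𝒜 μ)
    (hodd : ¬ 2 * N ∣ (b (f 0 - f 1) + b (f 2 - f 3)) μ) : ∃ i, μ = f i ∨ μ = -f i := by
  have key : ∀ k : Fin 4, (b (f 0 - f 1) + b (f 2 - f 3)) (f k) = N ∨
      (b (f 0 - f 1) + b (f 2 - f 3)) (f k) = -N := by
    intro k
    rw [AddMonoidHom.add_apply, hf.be 0 1 k (by decide), hf.be 2 3 k (by decide)]
    fin_cases k <;> simp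
  rcases hf.S μ hμ with h1 | ⟨i, j, hij, h1⟩ | h1 | ⟨i, j, hij, h1⟩
  · exfalso
    apply hodd
    rw [AddMonoidHom.add_apply, h1 0 1 (by decide), h1 2 3 (by decide)]
    exact dvd_zero _
  · exfalso
    apply hodd
    rw [h1, map_sub]
    rcases key i with e1 | e1 <;> rcases key j with e2 | e2 <;> rw [e1, e2]
    · exact ⟨0, by ring⟩
    · exact ⟨1, by ring⟩
    · exact ⟨-1, by ring⟩
    · exact ⟨0, by ring⟩
  · exact h1
  · exfalso
    apply hodd
    rw [h1, map_add]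
    rcases key i with e1 | e1 <;> rcases key j with e2 | e2 <;> rw [e1, e2]
    · exact ⟨1, by ring⟩
    · exact ⟨0, by ring⟩
    · exact ⟨0, by ring⟩
    · exact ⟨-1, by ring⟩

/-- (C3). -/
theorem V3.c3 (H : H63X.Hyp 𝒜) (hBd : Bd 𝒜) (h : RD 𝒜 N b al E F a) (hf : V3 𝒜 N b f)
    {c : (Fin r → ℤ) →+ ℤ} (h3 : 0 < c (f 3)) (hsp : ∀ k : Fin 4, k ≠ 3 → |c (f k)| < c (f 3))
    {z : FP 𝒜} {b0 b1 : Fin r → ℤ} (hz0 : z.Pi (-b0)) (hz1 : z.Pi (-b1)) (hb0 : 0 < c b0)
    (hb1 : 0 < c b1) (hoth : ∀ ψ, z.Pi ψ → ψ ≠ -b0 → ψ ≠ -b1 → 0 < c ψ) {k : Fin 4} (hk : k ≠ 3)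
    {w : Fin r → ℤ} (hw : w = f 3 - f k ∨ w = f 3 + f k) (hnw : ¬ z.Pi w) {n n' : ℕ}
    {M : List (Fin r → ℤ)} (hn : 1 ≤ n) (hn' : 1 ≤ n') (hM : ∀ μ ∈ M, z.Pi μ ∧ 0 < c μ)
    (he : w = f 3 + n • b0 + n' • b1 + M.sum) : False := by
  have hN := h.N0
  have hM0 : ∀ μ ∈ M, 0 ≤ c μ := fun μ hμ => (hM μ hμ).2.le
  have hMs := sum_nonneg hM0
  have hcn : c b0 ≤ n * c b0 := by
    have : (1 : ℤ) ≤ n := by exact_mod_cast hn
    nlinarith
  have hcn' : c b1 ≤ n' * c b1 := by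
    have : (1 : ℤ) ≤ n' := by exact_mod_cast hn'
    nlinarith
  have hce : c w - c (f 3) = n * c b0 + n' * c b1 + c M.sum := by
    rw [he, map_add, map_add, map_add, map_nsmul, map_nsmul, nsmul_eq_mul, nsmul_eq_mul]
    ring
  have hlt : c w - c (f 3) < c (f 3) := by
    have h1 := abs_lt.1 (hsp k hk)
    rcases hw with rfl | rfl
    · rw [map_sub]; omega
    · rw [map_add]; omega
  have hneg : ∀ ψ, z.Pi ψ → c ψ ≤ 0 → ψ = -b0 ∨ ψ = -b1 := by
    intro ψ hψ h0
    by_contra hcon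
    push Not at hcon
    exact absurd (hoth ψ hψ hcon.1 hcon.2) (not_lt.2 h0)
  -- the top spin is not at `z`
  have htop : ¬ z.Pi (f 3) := by
    intro hz3
    have h1 := hf.down H hBd h (Ne.symm hk) hw hz3 hnw
    have e1 : c (f 3 - w) = -(c w - c (f 3)) := by rw [map_sub]; ring
    rcases hneg _ h1 (by rw [e1]; omega) with h2 | h2
    · rw [h2, map_neg] at e1
      omega
    · rw [h2, map_neg] at e1
      omega
  -- there is a spin
  have hspin : (∃ u ∈ M, ∃ i, u = f i ∨ u = -f i) ∨ (∃ i, b0 = f i ∨ b0 = -f i) ∨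
      (∃ i, b1 = f i ∨ b1 = -f i) := by
    by_contra hcon
    push Not at hcon
    obtain ⟨g1, g2, g3⟩ := hcon
    set P : (Fin r → ℤ) →+ ℤ := b (f 0 - f 1) + b (f 2 - f 3) with hP
    have d0 : 2 * N ∣ P b0 := by
      by_contra hd
      obtain ⟨i, hi⟩ := hf.par (μ := b0) (by
        have := H641.wt_neg H ⟨z, hz0⟩
        rwa [neg_neg] at this) hd
      rcases hi with hi | hi
      · exact (g2 i).1 hi
      · exact (g2 i).2 hi
    have d1 : 2 * N ∣ P b1 := by
      by_contra hd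
      obtain ⟨i, hi⟩ := hf.par (μ := b1) (by
        have := H641.wt_neg H ⟨z, hz1⟩
        rwa [neg_neg] at this) hd
      rcases hi with hi | hi
      · exact (g3 i).1 hi
      · exact (g3 i).2 hi
    have dM : ∀ L : List (Fin r → ℤ), (∀ μ ∈ L, μ ∈ M) → 2 * N ∣ P L.sum := by
      intro L
      induction L with
      | nil => intro _; simp
      | cons x L ih =>
        intro hL
        rw [List.sum_cons, map_add]
        refine dvd_add ?_ (ih fun μ hμ => hL μ (List.mem_cons_of_mem _ hμ))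
        by_contra hd
        obtain ⟨i, hi⟩ := hf.par ⟨z, (hM x (hL x List.mem_cons_self)).1⟩ hd
        rcases hi with hi | hi
        · exact (g1 x (hL x List.mem_cons_self) i).1 hi
        · exact (g1 x (hL x List.mem_cons_self) i).2 hi
    have e1 : P w - P (f 3) = n * P b0 + n' * P b1 + P M.sum := by
      rw [he, map_add, map_add, map_add, map_nsmul, map_nsmul, nsmul_eq_mul, nsmul_eq_mul]
      ring
    have e2 : 2 * N ∣ P w - P (f 3) := by
      rw [e1]
      exact dvd_add (dvd_add (d0.mul_left _) (d1.mul_left _)) (dM M fun _ h => h)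
    have e3 : P (f k) = N ∨ P (f k) = -N := by
      rw [hP, AddMonoidHom.add_apply, hf.be 0 1 k (by decide), hf.be 2 3 k (by decide)]
      fin_cases k <;> simp
    have e4 : P w - P (f 3) = N ∨ P w - P (f 3) = -N := by
      rcases hw with rfl | rfl
      · rw [map_sub]
        rcases e3 with e3 | e3 <;> rw [e3]
        · right; ring
        · left; ring
      · rw [map_add]
        rcases e3 with e3 | e3 <;> rw [e3]
        · left; ring
        · right; ring
    obtain ⟨q, hq⟩ := e2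
    rcases e4 with e4 | e4
    · rw [hq] at e4
      have : N * (2 * q - 1) = 0 := by linear_combination e4
      rcases mul_eq_zero.1 this with h1 | h1 <;> omega
    · rw [hq] at e4
      have : N * (2 * q + 1) = 0 := by linear_combination e4
      rcases mul_eq_zero.1 this with h1 | h1 <;> omega
  -- the value of a spin different from the top one
  have hval : ∀ (u : Fin r → ℤ) (i : Fin 4), (u = f i ∨ u = -f i) → 0 < c u → c u < c (f 3) →
      i ≠ 3 := by
    rintro u i hu h1 h2 rfl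
    rcases hu with rfl | rfl
    · exact lt_irrefl _ h2
    · rw [map_neg] at h1
      omega
  have hwall : ∀ (d d' : Fin r → ℤ), z.Pi (-d) → 0 < c d → 0 < c d' → c d + c d' ≤ c w - c (f 3) →
      (∀ ψ, z.Pi ψ → c ψ ≤ 0 → ψ = -d ∨ ψ = -d') → (∃ i, d = f i ∨ d = -f i) → False := by
    rintro d d' hd hd0 hd0' hle hng ⟨i, hi⟩
    have hi3 : i ≠ 3 := hval d i hi hd0 (by omega)
    refine htop (hf.up H hBd h (Ne.symm hi3) (t := -d) ?_ hd ?_)
    · rcases hi with rfl | rfl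
      · exact Or.inr rfl
      · exact Or.inl (neg_neg _)
    · intro h1
      have e1 : c (-(f 3 - -d)) = -(c (f 3) + c d) := by rw [map_neg, map_sub, map_neg]; ring
      rcases hng _ h1 (by rw [e1]; omega) with h2 | h2
      · rw [h2, map_neg] at e1
        omega
      · rw [h2, map_neg] at e1
        omega
  rcases hspin with ⟨u, huM, i, hi⟩ | h1 | h1
  · obtain ⟨hu, hu0⟩ := hM u huM
    have hle := le_sum hM0 huM
    have hi3 : i ≠ 3 := hval u i hi hu0 (by omega)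
    refine htop (hf.up H hBd h (Ne.symm hi3) hi hu ?_)
    intro h1
    have e1 : c (-(f 3 - u)) = -(c (f 3) - c u) := by rw [map_neg, map_sub]
    rcases hneg _ h1 (by rw [e1]; omega) with h2 | h2
    · rw [h2, map_neg] at e1
      omega
    · rw [h2, map_neg] at e1
      omega
  · exact hwall b0 b1 hz0 hb0 hb1 (by omega) hneg h1
  · exact hwall b1 b0 hz1 hb1 hb0 (by omega) (fun ψ h2 h3 => (hneg ψ h2 h3).symm) h1

/-- (C2), first part: the weight is in the component and larger than the top spin. -/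
theorem V3.c2 (H : H63X.Hyp 𝒜) {c cb : (Fin r → ℤ) →+ ℤ} (h3 : 0 < c (f 3))
    (hcb : ∀ μ, Wt 𝒜 μ → cb μ = 0 ∨ cb μ = c μ) (hcb3 : cb (f 3) = c (f 3)) {y : FP 𝒜}
    {b0 : Fin r → ℤ} (hy : y.Pi (-b0)) (hb0 : 0 < c b0) {ω : Fin r → ℤ} (hω : y.Pi ω) {n : ℕ}
    {M : List (Fin r → ℤ)} (hn : 1 ≤ n) (hM : ∀ μ ∈ M, y.Pi μ ∧ 0 < c μ)
    (he : ω = f 3 + n • b0 + M.sum) : cb ω = c ω ∧ c (f 3) < c ω := by
  have hge : ∀ μ, Wt 𝒜 μ → 0 < c μ → 0 ≤ cb μ := fun μ hμ h0 => by
    rcases hcb μ hμ with h1 | h1 <;> rw [h1]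
    exact h0.le
  have hb0w : Wt 𝒜 b0 := by
    have := H641.wt_neg H ⟨y, hy⟩
    rwa [neg_neg] at this
  have e1 : cb ω = cb (f 3) + n * cb b0 + cb M.sum := by
    rw [he, map_add, map_add, map_nsmul, nsmul_eq_mul]
  have e2 : c ω = c (f 3) + n * c b0 + c M.sum := by
    rw [he, map_add, map_add, map_nsmul, nsmul_eq_mul]
  have h1 : 0 ≤ cb M.sum := sum_nonneg fun μ hμ => hge μ ⟨y, (hM μ hμ).1⟩ (hM μ hμ).2
  have h2 : 0 ≤ c M.sum := sum_nonneg fun μ hμ => (hM μ hμ).2.le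
  have h4 : 0 ≤ (n : ℤ) * cb b0 := mul_nonneg (Int.natCast_nonneg _) (hge b0 hb0w hb0)
  have h5 : 0 < (n : ℤ) * c b0 := mul_pos (by exact_mod_cast hn) hb0
  refine ⟨?_, by omega⟩
  rcases hcb ω ⟨y, hω⟩ with h6 | h6
  · rw [hcb3] at e1
    omega
  · exact h6

end Vale.Agent.P280.H706
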