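import Vale.Agent.P280.H706.V3Crit

/-! P280, T7, helper706: the two base chambers and the final statement. -/

open DirectSum Vale.Agent.P280.T Vale.Agent.P280.H127

namespace Vale.Agent.P280.H706

open Vale.Agent.P280.N Vale.Agent.P280.N.H989 Vale.Agent.P280.H143 Vale.Agent.P280.H60
  Vale.Agent.P280.H690 Vale.Agent.P280.H749

variable {r : ℕ} {R : Type} [CommRing R] [IsDomain R] [Algebra ℂ R]
  {𝒜 : ℕ × (Fin r → ℤ) → Submodule ℂ R} [GradedAlgebra 𝒜]
variable {N : ℤ} {b : (Fin r → ℤ) → ((Fin r → ℤ) →+ ℤ)} {al : (Fin r → ℤ) → ℂ}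
  {E F : (Fin r → ℤ) → Derivation ℂ R R} {a : (Fin r → ℤ) → FP 𝒜 → ℤ} {f : Fin 4 → Fin r → ℤ}

/-- `4 N` times the coordinate `k`. -/
def G (b : (Fin r → ℤ) → ((Fin r → ℤ) →+ ℤ)) (f : Fin 4 → Fin r → ℤ) (k : Fin 4) :
    (Fin r → ℤ) →+ ℤ := ∑ j, if j = k then 0 else b (f k - f j)

/-- A functional with given values on the letters. -/
def lin (b : (Fin r → ℤ) → ((Fin r → ℤ) →+ ℤ)) (f : Fin 4 → Fin r → ℤ) (t : Fin 4 → ℤ) :
    (Fin r → ℤ) →+ ℤ := ∑ k, t k • G b f k

omit [IsDomain R] [GradedAlgebra 𝒜] in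
theorem V3.G_f (hf : V3 𝒜 N b f) (k m : Fin 4) :
    G b f k (f m) = if m = k then 3 * N else -N := by
  rw [G, AddMonoidHom.finsetSum_apply, Fin.sum_univ_four]
  have key : ∀ j : Fin 4, (if j = k then (0 : (Fin r → ℤ) →+ ℤ) else b (f k - f j)) (f m) =
      if j = k then 0 else (if m = k then N else 0) - (if m = j then N else 0) := by
    intro j
    by_cases h1 : j = k
    · rw [if_pos h1, if_pos h1]; rfl
    · rw [if_neg h1, if_neg h1, hf.be k j m (Ne.symm h1)]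
  rw [key, key, key, key]
  fin_cases k <;> fin_cases m <;> simp <;> ring

omit [IsDomain R] [GradedAlgebra 𝒜] in
theorem V3.lin_f (hf : V3 𝒜 N b f) (t : Fin 4 → ℤ) (ht : t 0 + t 1 + t 2 + t 3 = 0) (m : Fin 4) :
    lin b f t (f m) = 4 * N * t m := by
  rw [lin, AddMonoidHom.finsetSum_apply, Fin.sum_univ_four]
  simp only [AddMonoidHom.smul_apply, smul_eq_mul, hf.G_f]
  have h3 : t 3 = -(t 0 + t 1 + t 2) := by omega
  fin_cases m
  · simp; rw [h3]; ring
  · simp; rw [h3]; ring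
  · simp; rw [h3]; ring
  · simp; rw [h3]; ring

omit [IsDomain R] [GradedAlgebra 𝒜] in
theorem lin_zero {μ : Fin r → ℤ} (h : ∀ i j, i ≠ j → b (f i - f j) μ = 0) (t : Fin 4 → ℤ) :
    lin b f t μ = 0 := by
  rw [lin, AddMonoidHom.finsetSum_apply]
  refine Finset.sum_eq_zero fun k _ => ?_
  rw [AddMonoidHom.smul_apply, G, AddMonoidHom.finsetSum_apply, Finset.sum_eq_zero, smul_zero]
  intro j _
  by_cases h1 : j = k
  · rw [if_pos h1]; rfl
  · rw [if_neg h1]
    exact h k j (Ne.symm h1)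

omit [IsDomain R] [GradedAlgebra 𝒜] in
theorem V3.sum_c (hf : V3 𝒜 N b f) (c : (Fin r → ℤ) →+ ℤ) :
    c (f 0) + c (f 1) + c (f 2) + c (f 3) = 0 := by
  have h1 := hf.sum
  rw [Fin.sum_univ_four] at h1
  have h2 := congrArg c h1
  simpa using h2

/-- The functional with the values `4 N v` on the letters. -/
def cs (N : ℤ) (b : (Fin r → ℤ) → ((Fin r → ℤ) →+ ℤ)) (f : Fin 4 → Fin r → ℤ)
    (c : (Fin r → ℤ) →+ ℤ) (v : Fin 4 → ℤ) : (Fin r → ℤ) →+ ℤ :=
  (4 * N) • c + lin b f (fun k => v k - c (f k))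

omit [IsDomain R] [GradedAlgebra 𝒜] in
theorem V3.cs_f (hf : V3 𝒜 N b f) (c : (Fin r → ℤ) →+ ℤ) (v : Fin 4 → ℤ)
    (hv : v 0 + v 1 + v 2 + v 3 = 0) (m : Fin 4) : cs N b f c v (f m) = 4 * N * v m := by
  have h1 := hf.sum_c c
  rw [cs, AddMonoidHom.add_apply, AddMonoidHom.smul_apply, smul_eq_mul,
    hf.lin_f (fun k => v k - c (f k))
      (show v 0 - c (f 0) + (v 1 - c (f 1)) + (v 2 - c (f 2)) + (v 3 - c (f 3)) = 0 by omega)]
  ring

omit [IsDomain R] [GradedAlgebra 𝒜] in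
theorem cs_orth {μ : Fin r → ℤ} (h : ∀ i j, i ≠ j → b (f i - f j) μ = 0) (c : (Fin r → ℤ) →+ ℤ)
    (v : Fin 4 → ℤ) : cs N b f c v μ = 4 * N * c μ := by
  rw [cs, AddMonoidHom.add_apply, AddMonoidHom.smul_apply, smul_eq_mul, lin_zero h, add_zero]

/-- The criterion in a chamber given by four integers. -/
theorem V3.lift (H : H63X.Hyp 𝒜) (hBd : Bd 𝒜) (hdat : CritData 𝒜) (h : RD 𝒜 N b al E F a)
    (hf : V3 𝒜 N b f) {c : (Fin r → ℤ) →+ ℤ} (hc : ∀ μ, Wt 𝒜 μ → c μ ≠ 0) {p : FP 𝒜}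
    (hp : Pos c p) (v : Fin 4 → ℤ) (hv : v 0 + v 1 + v 2 + v 3 = 0)
    (hvd : ∀ i j, 0 < c (f i) - c (f j) → 0 < v i - v j)
    (hvs : ∀ i, (0 < c (f i) → 0 < v i) ∧ (c (f i) < 0 → v i < 0))
    (hva : ∀ i j, i ≠ j → 0 < c (f i) + c (f j) → 0 < v i + v j) (hv3 : 0 < v 3)
    (hlt : ∀ k : Fin 4, k ≠ 3 → |v k| < v 3) (w : Fin 3 → Fin r → ℤ)
    (κ : Fin 3 → Fin 4) (hκ : ∀ i, κ i ≠ 3)
    (hw : ∀ i, w i = f 3 - f (κ i) ∨ w i = f 3 + f (κ i)) (hinj : Function.Injective w)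
    (hJd : ∀ i j, i ≠ j → v 3 < v i - v j → ∃ q, f i - f j = w q)
    (hJa : ∀ i j, i ≠ j → v 3 < v i + v j → ∃ q, f i + f j = w q)
    (hJw : ∀ q, (w q = f 3 - f (κ q) → v (κ q) < 0) ∧ (w q = f 3 + f (κ q) → 0 < v (κ q))) :
    Lf 𝒜 p (f 3) := by
  have hN := h.N0
  have h4N : 0 < 4 * N := by omega
  set c' := cs N b f c v with hc'
  have hcf : ∀ m, c' (f m) = 4 * N * v m := hf.cs_f c v hv
  have hpos : ∀ μ, Wt 𝒜 μ → 0 < c μ → 0 < c' μ := by
    intro μ hμ h0
    rcases hf.S μ hμ with h1 | ⟨i, j, hij, rfl⟩ | ⟨i, rfl | rfl⟩ | ⟨i, j, hij, rfl⟩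
    · rw [hc', cs_orth h1]
      exact mul_pos h4N h0
    · rw [map_sub, hcf, hcf, ← mul_sub]
      rw [map_sub] at h0
      exact mul_pos h4N (hvd i j h0)
    · rw [hcf]
      exact mul_pos h4N ((hvs i).1 h0)
    · rw [map_neg, hcf, ← mul_neg]
      rw [map_neg] at h0
      exact mul_pos h4N (by have := (hvs i).2 (by omega); omega)
    · rw [map_add, hcf, hcf, ← mul_add]
      rw [map_add] at h0
      exact mul_pos h4N (hva i j hij h0)
  have hc'0 : ∀ μ, Wt 𝒜 μ → c' μ ≠ 0 := by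
    intro μ hμ
    rcases lt_trichotomy 0 (c μ) with h1 | h1 | h1
    · exact (hpos μ hμ h1).ne'
    · exact absurd h1.symm (hc μ hμ)
    · have h2 := hpos (-μ) (H641.wt_neg H hμ) (by rw [map_neg]; omega)
      rw [map_neg] at h2
      omega
  have hp' : Pos c' p := by
    intro χ hχ
    have h1 := hp χ hχ
    exact (hpos χ ⟨p, hχ⟩ (lt_of_le_of_ne h1 (hc χ ⟨p, hχ⟩).symm)).le
  have h3 : 0 < c' (f 3) := by rw [hcf]; exact mul_pos h4N hv3
  have hsp : ∀ k : Fin 4, k ≠ 3 → |c' (f k)| < c' (f 3) := by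
    intro k hk
    rw [hcf, hcf, abs_mul, abs_of_pos h4N]
    exact mul_lt_mul_of_pos_left (hlt k hk) h4N
  have hcb : ∀ μ, Wt 𝒜 μ → lin b f v μ = 0 ∨ lin b f v μ = c' μ := by
    intro μ hμ
    have hm : ∀ m, lin b f v (f m) = c' (f m) := fun m => by rw [hf.lin_f v hv, hcf]
    rcases hf.S μ hμ with h1 | ⟨i, j, hij, rfl⟩ | ⟨i, rfl | rfl⟩ | ⟨i, j, hij, rfl⟩
    · exact Or.inl (lin_zero h1 v)
    · exact Or.inr (by rw [map_sub, map_sub, hm, hm])
    · exact Or.inr (hm i)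
    · exact Or.inr (by rw [map_neg, map_neg, hm])
    · exact Or.inr (by rw [map_add, map_add, hm, hm])
  -- the fields
  have hE : ∀ q, ∃ D : Derivation ℂ R R, H93.IsHField 𝒜 (w q) D ∧
      ∀ y : FP 𝒜, y.Pi (w q) → (∃ x, y.q (D x) ≠ 0) ∧ One 𝒜 y (w q) := by
    intro q
    rcases hw q with h1 | h1
    · have hvx := hf.vx 3 (κ q) (Ne.symm (hκ q))
      rw [← h1] at hvx
      exact ⟨E (w q), (h.rt _ hvx).hE, fun y hy => ⟨rt_at H hN (h.rt _ hvx) hy,
        H.mult y (w q) hvx hy⟩⟩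
    · obtain ⟨β, α, E', F', hR, -, -, -, hbd⟩ := hf.vec H hBd h (Ne.symm (hκ q))
      rw [← h1] at hR hbd
      exact ⟨E', hR.hE, fun y hy => ⟨rt_at H hN hR hy, (hBd y (w q) hy hbd).2⟩⟩
  choose D hD hDat using hE
  have hcw : ∀ q, c' (f 3) < c' (w q) := by
    intro q
    rcases hw q with h1 | h1
    · have h2 := (hJw q).1 h1
      rw [h1, map_sub, hcf (κ q)]
      have : 4 * N * v (κ q) < 0 := mul_neg_of_pos_of_neg h4N h2
      omega
    · have h2 := (hJw q).2 h1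
      rw [h1, map_add, hcf (κ q)]
      have : 0 < 4 * N * v (κ q) := mul_pos h4N h2
      omega
  refine crit_of_data H hdat hc'0 hp' w hinj D hD hcw (fun y i hy => hDat i y hy) ?_ ?_
  · intro y b0 W ω hω n M hn hM he
    obtain ⟨h1, h2⟩ := V3.c2 H h3 hcb (by rw [hf.lin_f v hv, hcf]) W.pi W.pos hω hn hM he
    have hlt' : ∀ x : ℤ, 4 * N * v 3 < 4 * N * x → v 3 < x := fun x hx =>
      lt_of_mul_lt_mul_left hx h4N.le
    rcases hf.S ω ⟨y, hω⟩ with h5 | ⟨i, j, hij, rfl⟩ | ⟨i, h5⟩ | ⟨i, j, hij, rfl⟩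
    · rw [lin_zero h5] at h1
      omega
    · refine hJd i j hij (hlt' _ ?_)
      rw [map_sub, hcf, hcf, hcf] at h2
      rw [mul_sub]
      exact h2
    · exfalso
      have h6 : c' ω ≤ c' (f 3) := by
        by_cases hi : i = 3
        · subst hi
          rcases h5 with rfl | rfl
          · exact le_rfl
          · rw [map_neg]; omega
        · have h7 := abs_lt.1 (hsp i hi)
          rcases h5 with rfl | rfl
          · omega
          · rw [map_neg]; omega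
      omega
    · refine hJa i j hij (hlt' _ ?_)
      rw [map_add, hcf, hcf, hcf] at h2
      rw [mul_add]
      exact h2
  · intro z b0 b1 hz0 hz1 hb0 hb1 hoth _ i
    by_cases hz : z.Pi (w i)
    · exact Or.inl (hDat i z hz).1
    · right
      intro n n' M hn hn' hM he
      exact hf.c3 H hBd h h3 hsp hz0 hz1 hb0 hb1 hoth (hκ i) (hw i) hz hn hn' hM he

/-- The top spin lifts at the source. -/
theorem V3.lf_top (H : H63X.Hyp 𝒜) (hBd : Bd 𝒜) (hdat : CritData 𝒜) (h : RD 𝒜 N b al E F a)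
    (hf : V3 𝒜 N b f) {c : (Fin r → ℤ) →+ ℤ} (hc : ∀ μ, Wt 𝒜 μ → c μ ≠ 0) {p : FP 𝒜}
    (hp : Pos c p) (s01 : c (f 0) < c (f 1)) (s12 : c (f 1) < c (f 2)) (s23 : c (f 2) < c (f 3))
    (s03 : 0 < c (f 3) + c (f 0)) : Lf 𝒜 p (f 3) := by
  have hsum := hf.sum_c c
  have hc2 := hc _ (hf.wt 2)
  rcases lt_or_gt_of_ne hc2 with h2 | h2
  · -- the adapted chamber
    refine hf.lift H hBd hdat h hc hp ![-9, -7, -1, 17] (by decide) ?_ ?_ ?_ (by decide) (by decide)
      ![f 3 - f 0, f 3 - f 1, f 3 - f 2] ![0, 1, 2] (by decide) ?_ ?_ ?_ ?_ ?_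
    · intro i j hij
      fin_cases i <;> fin_cases j <;> simp at hij ⊢ <;> omega
    · intro i
      fin_cases i <;> simp <;> omega
    · intro i j hne hij
      fin_cases i <;> fin_cases j <;> simp at hne hij ⊢ <;> omega
    · intro i
      fin_cases i
      · exact Or.inl rfl
      · exact Or.inl rfl
      · exact Or.inl rfl
    · intro i j hij
      by_contra hne
      have h1 := congrArg c hij
      fin_cases i <;> fin_cases j <;> simp at hne h1 <;> omega
    · intro i j hne hij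
      fin_cases i <;> fin_cases j <;> simp at hne hij
      · exact ⟨0, rfl⟩
      · exact ⟨1, rfl⟩
      · exact ⟨2, rfl⟩
    · intro i j hne hij
      fin_cases i <;> fin_cases j <;> simp at hne hij
    · intro q
      constructor
      · intro _
        fin_cases q
        all_goals simp
      · intro h1
        exfalso
        have h3 := congrArg c h1
        fin_cases q <;> simp at h3 <;> omega
  · -- the other chamber
    refine hf.lift H hBd hdat h hc hp ![-11, -9, 1, 19] (by decide) ?_ ?_ ?_ (by decide) (by decide)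
      ![f 3 - f 0, f 3 - f 1, f 3 + f 2] ![0, 1, 2] (by decide) ?_ ?_ ?_ ?_ ?_
    · intro i j hij
      fin_cases i <;> fin_cases j <;> simp at hij ⊢ <;> omega
    · intro i
      fin_cases i <;> simp <;> omega
    · intro i j hne hij
      fin_cases i <;> fin_cases j <;> simp at hne hij ⊢ <;> omega
    · intro i
      fin_cases i
      · exact Or.inl rfl
      · exact Or.inl rfl
      · exact Or.inr rfl
    · intro i j hij
      by_contra hne
      have h1 := congrArg c hij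
      fin_cases i <;> fin_cases j <;> simp at hne h1 <;> omega
    · intro i j hne hij
      fin_cases i <;> fin_cases j <;> simp at hne hij
      · exact ⟨0, rfl⟩
      · exact ⟨1, rfl⟩
    · intro i j hne hij
      fin_cases i <;> fin_cases j <;> simp at hne hij
      · exact ⟨2, add_comm _ _⟩
      · exact ⟨2, rfl⟩
    · intro q
      constructor
      · intro h1
        have h3 := congrArg c h1
        fin_cases q <;> simp at h3 ⊢ <;> omega
      · intro h1
        have h3 := congrArg c h1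
        fin_cases q <;> simp at h3 ⊢ <;> omega

/-- All spins lift at the source, sorted form. -/
theorem V3.lf_sorted (H : H63X.Hyp 𝒜) (hBd : Bd 𝒜) (hdat : CritData 𝒜) (h : RD 𝒜 N b al E F a)
    (hf : V3 𝒜 N b f) {c : (Fin r → ℤ) →+ ℤ} (hc : ∀ μ, Wt 𝒜 μ → c μ ≠ 0) {p : FP 𝒜}
    (hp : Pos c p) (s01 : c (f 0) < c (f 1)) (s12 : c (f 1) < c (f 2)) (s23 : c (f 2) < c (f 3))
    (s03 : 0 < c (f 3) + c (f 0)) (i : Fin 4) : Lf 𝒜 p (f i) ∧ Lf 𝒜 p (-f i) := by
  have hN := h.N0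
  have htop := hf.lf_top H hBd hdat h hc hp s01 s12 s23 s03
  have hlt : ∀ i : Fin 4, i ≠ 3 → c (f i) < c (f 3) ∧ 0 < c (f 3) + c (f i) := by
    intro i hi
    fin_cases i
    · exact ⟨show c (f 0) < c (f 3) by omega, s03⟩
    · exact ⟨show c (f 1) < c (f 3) by omega, show 0 < c (f 3) + c (f 1) by omega⟩
    · exact ⟨s23, show 0 < c (f 3) + c (f 2) by omega⟩
    · exact absurd rfl hi
  by_cases hi : i = 3
  · subst hi
    refine ⟨htop, lf_of_not_pi p fun h1 => ?_⟩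
    have h2 := hp _ h1
    rw [map_neg] at h2
    omega
  have hi' : (3 : Fin 4) ≠ i := Ne.symm hi
  obtain ⟨h1, h2⟩ := hlt i hi
  constructor
  · have hvx := hf.vx 3 i hi'
    have hne : -(f 3 - f i) ≠ 0 := fun h0 => by
      have := congrArg c h0
      rw [map_neg, map_sub, map_zero] at this
      omega
    refine lf_exch H hN (h.rt _ hvx) p (val_zero p hne (h.rt _ hvx).hF fun h3 => ?_)
      ((h.root _ hvx).int _ (hf.wt i)) ?_ ?_
    · have h4 := hp _ h3
      rw [map_neg, map_sub] at h4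
      omega
    · rw [hf.be 3 i i hi', if_neg hi, if_pos rfl]
      omega
    · rw [add_sub_cancel]
      exact htop
  · obtain ⟨β, α, E', F', hR, h3, h4, h5, -⟩ := hf.vec H hBd h hi'
    have hne : -(f 3 + f i) ≠ 0 := fun h0 => by
      have := congrArg c h0
      rw [map_neg, map_add, map_zero] at this
      omega
    refine lf_exch H hN hR p (val_zero p hne hR.hF fun h6 => ?_) (h5 _ (hf.wtn i)) ?_ ?_
    · have h7 := hp _ h6
      rw [map_neg, map_add] at h7
      omega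
    · rw [map_neg, h4]
      omega
    · have e1 : -f i + (f 3 + f i) = f 3 := by abel
      rw [e1]
      exact htop

/-- **All spins of a component of type `A_3` with vector weights lift at all sources.** -/
theorem V3.lf_source (H : H63X.Hyp 𝒜) (hBd : Bd 𝒜) (hdat : CritData 𝒜) (h : RD 𝒜 N b al E F a)
    (hf : V3 𝒜 N b f) {c : (Fin r → ℤ) →+ ℤ} (hc : ∀ μ, Wt 𝒜 μ → c μ ≠ 0) {p : FP 𝒜}
    (hp : Pos c p) (i : Fin 4) : Lf 𝒜 p (f i) ∧ Lf 𝒜 p (-f i) := by
  set g : Fin 4 → ℤ := fun i => c (f i) with hg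
  have hinj : Function.Injective g := by
    intro i j hij
    by_contra hne
    have h1 := hc _ (hf.vx i j hne).1
    rw [map_sub] at h1
    exact h1 (sub_eq_zero.2 hij)
  have hmono : StrictMono (g ∘ Tuple.sort g) :=
    (Tuple.monotone_sort g).strictMono_of_injective (hinj.comp (Tuple.sort g).injective)
  set σ := Tuple.sort g with hσ
  have t01 : c (f (σ 0)) < c (f (σ 1)) := hmono (by decide)
  have t12 : c (f (σ 1)) < c (f (σ 2)) := hmono (by decide)
  have t23 : c (f (σ 2)) < c (f (σ 3)) := hmono (by decide)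
  have t03 : c (f (σ 3)) + c (f (σ 0)) ≠ 0 := by
    have h1 := hc _ (hf.vc (σ 3) (σ 0) (σ.injective.ne (by decide)))
    rwa [map_add] at h1
  rcases lt_or_gt_of_ne t03 with h1 | h1
  · have h2 := ((hf.perm (Fin.revPerm.trans σ)).neg).lf_sorted H hBd hdat h hc hp
      (by
        change c (-f (σ 3)) < c (-f (σ 2))
        rw [map_neg, map_neg]; omega)
      (by
        change c (-f (σ 2)) < c (-f (σ 1))
        rw [map_neg, map_neg]; omega)
      (by
        change c (-f (σ 1)) < c (-f (σ 0))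
        rw [map_neg, map_neg]; omega)
      (by
        change 0 < c (-f (σ 0)) + c (-f (σ 3))
        rw [map_neg, map_neg]; omega) (Fin.revPerm.symm (σ.symm i))
    simp only [Equiv.trans_apply, Equiv.apply_symm_apply, neg_neg] at h2
    exact ⟨h2.2, h2.1⟩
  · have h2 := (hf.perm σ).lf_sorted H hBd hdat h hc hp t01 t12 t23 h1 (σ.symm i)
    simp only [Equiv.apply_symm_apply] at h2
    exact h2

/-- The same for the component `AC` of an interior weight. -/
theorem ac_lf_source (H : H63X.Hyp 𝒜) (hBd : Bd 𝒜) (hdat : CritData 𝒜) (h : RD 𝒜 N b al E F a)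
    {E' F' : Fin 4 → Fin 4 → VF R} (hA : AC 𝒜 N 3 f (fun i j => b (f i - f j)) E' F')
    (hv : ∃ i j, i ≠ j ∧ Wt 𝒜 (f i + f j)) {c : (Fin r → ℤ) →+ ℤ} (hc : ∀ μ, Wt 𝒜 μ → c μ ≠ 0)
    {p : FP 𝒜} (hp : Pos c p) (i : Fin 4) : Lf 𝒜 p (f i) ∧ Lf 𝒜 p (-f i) :=
  (V3.of_AC H hA hv).lf_source H hBd hdat h hc hp i

end Vale.Agent.P280.H706
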